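import Vale.Agent.P092.H739.PiChain
import Vale.Agent.P092.H264.Fix

/-!
P092 (helper739): Howe–Moore along the product of the first directions of the factors of a finite
product of groups `SL_n`.
-/

set_option linter.all false

open scoped InnerProductSpace Topology
open Filter Topology MeasureTheory Matrix.SpecialLinearGroup

namespace Vale.Agent.P092.H739

open Vale.Agent.P092.H933 (Len)
open Vale.Agent.P092.H264 (HMSeq)
open Vale.Agent.P092.H701

/-- A sequence whose contracted elements generate the group, in the sense of Mautner. -/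
def Mau (H : Type) [Group H] [TopologicalSpace H] (b : ℕ → H) : Prop :=
  ∀ f : H → ℝ, Len f →
    (∀ u, Tendsto (fun N => (b N)⁻¹ * u * b N) atTop (𝓝 1) → f u = 0) → ∀ g, f g = 0

/-- Subsequences. -/
theorem Mau.comp {H : Type} [Group H] [TopologicalSpace H] {b : ℕ → H} (h : Mau H b) {s : ℕ → ℕ}
    (hs : Tendsto s atTop atTop) : Mau H (fun N => b (s N)) :=
  fun f hf h1 => h f hf fun u hu => h1 u (hu.comp hs)

theorem HMSeq.comp {H : Type} [Group H] [TopologicalSpace H] {b : ℕ → H} (h : HMSeq H b)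
    {s : ℕ → ℕ} (hs : Tendsto s atTop atTop) : HMSeq H (fun N => b (s N)) :=
  fun E _ _ _ π h1 h2 h3 ξ η => (h E π h1 h2 h3 ξ η).comp hs

/-- Mautner sequences satisfy Howe–Moore. -/
theorem Mau.hmSeq {H : Type} [Group H] [TopologicalSpace H] {b : ℕ → H} (h : Mau H b) :
    HMSeq H b := by
  intro E _ _ _ π h1 h2 h3 ξ η
  rw [tendsto_iff_ultrafilter]
  intro U hU
  obtain ⟨w, hw⟩ := H201.exists_weak U (fun N => π (b N) ξ) ‖ξ‖
    (Eventually.of_forall fun N => (h1 _ _).le)
  have hinv : ∀ u (x y : E), ⟪x, π u y⟫_ℂ = ⟪π u⁻¹ x, y⟫_ℂ := by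
    intro u x y
    have e1 : ⟪π u (π u⁻¹ x), π u y⟫_ℂ = ⟪π u⁻¹ x, y⟫_ℂ :=
      (LinearIsometry.mk (π u).toLinearMap (h1 u)).inner_map_map _ _
    have e2 : π u (π u⁻¹ x) = x := by
      have e3 : (π u * π u⁻¹) x = x := by rw [← map_mul, mul_inv_cancel, map_one]; rfl
      exact e3
    rwa [e2] at e1
  have hfix : ∀ u, Tendsto (fun N => (b N)⁻¹ * u * b N) atTop (𝓝 1) → π u w = w := by
    intro u hu
    refine ext_inner_left ℂ fun z => ?_
    have e1 : Tendsto (fun N => ⟪z, π u (π (b N) ξ)⟫_ℂ) U (𝓝 ⟪z, π u w⟫_ℂ) := by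
      rw [hinv]
      exact (hw (π u⁻¹ z)).congr fun N => (hinv _ _ _).symm
    have e2 : Tendsto (fun N => ⟪z, π u (π (b N) ξ) - π (b N) ξ⟫_ℂ) U (𝓝 0) := by
      rw [tendsto_zero_iff_norm_tendsto_zero]
      have e3 : Tendsto (fun N => ‖z‖ * ‖π ((b N)⁻¹ * u * b N) ξ - ξ‖) U (𝓝 0) := by
        have hc : Tendsto (fun g => π g ξ) (𝓝 1) (𝓝 ξ) := by
          have := (h2 ξ).tendsto 1
          rwa [map_one] at this
        have e4 := ((hc.comp (hu.mono_left hU)).sub_const ξ).norm.const_mul ‖z‖
        rw [sub_self, norm_zero, mul_zero] at e4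
        exact e4
      refine squeeze_zero (fun N => norm_nonneg _) (fun N => ?_) e3
      refine (norm_inner_le_norm _ _).trans ?_
      have e5 : π u (π (b N) ξ) = π (b N) (π ((b N)⁻¹ * u * b N) ξ) := by
        have e7 : (π u * π (b N)) ξ = (π (b N) * π ((b N)⁻¹ * u * b N)) ξ := by
          rw [← map_mul, ← map_mul]
          congr 2
          group
        exact e7
      rw [e5, ← map_sub, h1]
    have e8 : Tendsto (fun N => ⟪z, π u (π (b N) ξ)⟫_ℂ) U (𝓝 ⟪z, w⟫_ℂ) := by
      have e9 := e2.add (hw z)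
      rw [zero_add] at e9
      refine e9.congr fun N => ?_
      rw [inner_sub_right]
      ring
    exact tendsto_nhds_unique e1 e8
  have hlen : Len fun g => dist (π g w) w := by
    refine Len.ofAction (fun g x => π g x) (fun g g' x => ?_) w ?_ (fun g x y => ?_) ?_
    · rw [map_mul]; rfl
    · rw [map_one]; rfl
    · rw [dist_eq_norm, dist_eq_norm, ← map_sub, h1]
    · have := (h2 w).tendsto 1
      rwa [map_one] at this
  have hall := h _ hlen fun u hu => by
    show dist (π u w) w = 0
    rw [hfix u hu, dist_self]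
  have hw0 : w = 0 := h3 w fun g => dist_eq_zero.1 (hall g)
  have e1 := (Complex.continuous_conj.tendsto _).comp (hw η)
  rw [hw0, inner_zero_right, map_zero] at e1
  refine e1.congr fun N => ?_
  simp only [Function.comp_apply]
  exact inner_conj_symm _ _

/-- The first direction of `SL_{n+1}(k)`. -/
theorem mau_sl (k : Type) [NontriviallyNormedField k] [ProperSpace k] (n : ℕ) (hn : 0 < n)
    [MeasurableSpace (Matrix.SpecialLinearGroup (Fin (n + 1)) k)]
    [OpensMeasurableSpace (Matrix.SpecialLinearGroup (Fin (n + 1)) k)] :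
    Mau (Matrix.SpecialLinearGroup (Fin (n + 1)) k) ((slChain k n).b ⟨0, hn⟩) := by
  intro f hf h1 g
  obtain ⟨w, hw1, hw, hb⟩ : ∃ (w : k) (hw1 : 1 < ‖w‖) (hw : w ≠ 0),
      ∀ N, (slChain k n).b ⟨0, hn⟩ N = tor n hw 0 ^ N := by
    refine ⟨(NormedField.exists_one_lt_norm k).choose,
      (NormedField.exists_one_lt_norm k).choose_spec,
      norm_pos_iff.mp (lt_trans one_pos (NormedField.exists_one_lt_norm k).choose_spec),
      fun N => rfl⟩
  have h01 : (0 : Fin (n + 1)) ≠ ⟨1, by omega⟩ := by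
    intro h
    have := congrArg Fin.val h
    simp at this
  have key : ∀ s : k, transvection h01 s ∈ hf.ker := by
    intro s
    refine h1 _ ?_
    have e : ∀ N, ((slChain k n).b ⟨0, hn⟩ N)⁻¹ * transvection h01 s *
        (slChain k n).b ⟨0, hn⟩ N = transvection h01 (((w ^ n) ^ N)⁻¹ * s * (w⁻¹) ^ N) := by
      intro N
      rw [hb]
      have e1 : transvection h01 s * tor n hw 0 ^ N =
          tor n hw 0 ^ N * transvection h01 (((w ^ n) ^ N)⁻¹ * s * (w⁻¹) ^ N) := by
        have hD : (tor n hw 0 ^ N).1 = Matrix.diagonal (fun i => dg n w 0 i ^ N) := by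
          rw [coe_pow]
          exact Matrix.diagonal_pow _ _
        have hw0 : w ^ n ≠ 0 := pow_ne_zero _ hw
        have d0 : dg n w 0 (0 : Fin (n + 1)) = w ^ n := by
          rw [dg_self]; simp
        have d1 : dg n w 0 (⟨1, by omega⟩ : Fin (n + 1)) = w⁻¹ :=
          dg_gt n w (by rw [Fin.lt_def]; simp)
        refine Subtype.ext ?_
        show (transvection h01 s).1 * (tor n hw 0 ^ N).1 = (tor n hw 0 ^ N).1 *
          (transvection h01 (((w ^ n) ^ N)⁻¹ * s * (w⁻¹) ^ N)).1
        rw [hD, transvection_coe, transvection_coe]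
        ext x y
        rw [Matrix.mul_diagonal, Matrix.diagonal_mul]
        simp only [Matrix.transvection, Matrix.add_apply, Matrix.single_apply, Matrix.one_apply]
        by_cases hx : (0 : Fin (n + 1)) = x ∧ (⟨1, by omega⟩ : Fin (n + 1)) = y
        · obtain ⟨rfl, rfl⟩ := hx
          rw [if_neg h01, if_pos ⟨rfl, rfl⟩, d0, d1, if_pos ⟨rfl, rfl⟩]
          field_simp
          ring
        · rw [if_neg hx, if_neg hx, add_zero]
          by_cases hxy : x = y
          · subst hxy
            simp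
          · simp [hxy]
      rw [mul_assoc, e1, inv_mul_cancel_left]
    simp only [e]
    refine H933.tendsto_transvection h01 ?_
    have hi : ‖w⁻¹‖ < 1 := by
      rw [norm_inv]; exact inv_lt_one_of_one_lt₀ hw1
    have l1 : Tendsto (fun N : ℕ => (w⁻¹) ^ N) atTop (𝓝 0) :=
      tendsto_pow_atTop_nhds_zero_of_norm_lt_one hi
    have l2 : Tendsto (fun N : ℕ => ((w ^ n) ^ N)⁻¹) atTop (𝓝 0) := by
      have hi2 : ‖(w ^ n)⁻¹‖ < 1 := by
        rw [norm_inv, norm_pow]
        exact inv_lt_one_of_one_lt₀ (one_lt_pow₀ hw1 (by omega))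
      refine (tendsto_pow_atTop_nhds_zero_of_norm_lt_one hi2).congr fun N => ?_
      rw [inv_pow]
    have l3 := (l2.mul_const s).mul l1
    rw [zero_mul, zero_mul] at l3
    exact l3
  have h2 : hf.ker = ⊤ := hf.eq_top h01 key
  have h3 : g ∈ hf.ker := by rw [h2]; trivial
  exact h3

/-- Finite products. -/
theorem mau_pi {I : Type} [Finite I] [DecidableEq I] {H : I → Type} [∀ i, Group (H i)]
    [∀ i, TopologicalSpace (H i)] {b : ∀ i, ℕ → H i} (h : ∀ i, Mau (H i) (b i)) :
    Mau (∀ i, H i) (fun N i => b i N) := by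
  intro f hf h1 g
  have key : ∀ i (x : H i), Pi.mulSingle i x ∈ hf.ker := by
    intro i x
    have hc : ContinuousAt (MonoidHom.mulSingle H i) 1 := by
      have : Continuous fun x : H i => (Pi.mulSingle i x : ∀ i, H i) := continuous_mulSingle i
      exact this.continuousAt
    refine h i _ (hf.comap (MonoidHom.mulSingle H i) hc) (fun u hu => ?_) x
    refine h1 _ ?_
    rw [tendsto_pi_nhds]
    intro j
    by_cases hj : j = i
    · subst hj
      refine hu.congr fun N => ?_
      show (b j N)⁻¹ * u * b j N = (b j N)⁻¹ * (Pi.mulSingle j u : ∀ i, H i) j * b j N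
      rw [Pi.mulSingle_eq_same]
    · refine tendsto_const_nhds.congr fun N => ?_
      show (1 : H j) = (b j N)⁻¹ * (Pi.mulSingle i u : ∀ i, H i) j * b j N
      rw [Pi.mulSingle_eq_of_ne hj, mul_one, inv_mul_cancel]
  exact Subgroup.pi_mem_of_mulSingle_mem g fun i => key i _

end Vale.Agent.P092.H739
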