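import Vale.Agent.P092.H739.Some

/-!
P092 (helper739): the chain of a finite product which starts with the first directions of the
factors in a set `S`.
-/

set_option linter.all false

open Filter Topology MeasureTheory

namespace Vale.Agent.P092.H739

open Vale.Agent.P092.H761 (HS)
open Vale.Agent.P092.H701 (HChain)

section enum

variable {I : Type} [Fintype I] [DecidableEq I] {m : I → ℕ}

/-- The order in which the directions are used: first the first directions of the factors in `S`. -/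
def key (S : Finset I) (ι : I ≃ Fin (Fintype.card I)) (x : Σ i, Fin (m i)) : ℕ :=
  if x.1 ∈ S ∧ (x.2 : ℕ) = 0 then (ι x.1 : ℕ) else Fintype.card I * ((x.2 : ℕ) + 1) + ι x.1

variable (S : Finset I) (ι : I ≃ Fin (Fintype.card I))

theorem key_head {x : Σ i, Fin (m i)} (h : x.1 ∈ S ∧ (x.2 : ℕ) = 0) :
    key S ι x = (ι x.1 : ℕ) := by rw [key, if_pos h]

theorem key_tail {x : Σ i, Fin (m i)} (h : ¬ (x.1 ∈ S ∧ (x.2 : ℕ) = 0)) :
    key S ι x = Fintype.card I * ((x.2 : ℕ) + 1) + ι x.1 := by rw [key, if_neg h]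

theorem key_lt_iff (x : Σ i, Fin (m i)) :
    key S ι x < Fintype.card I ↔ (x.1 ∈ S ∧ (x.2 : ℕ) = 0) := by
  constructor
  · intro h
    by_contra hc
    rw [key_tail S ι hc] at h
    have : Fintype.card I * ((x.2 : ℕ) + 1) ≥ Fintype.card I := Nat.le_mul_of_pos_right _ (by omega)
    omega
  · intro h
    rw [key_head S ι h]
    exact (ι x.1).2

theorem key_injective : Function.Injective (key S ι : (Σ i, Fin (m i)) → ℕ) := by
  intro x y h
  have aux : ∀ x y : Σ i, Fin (m i), (ι x.1 : ℕ) = ι y.1 → (x.2 : ℕ) = y.2 → x = y := by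
    rintro ⟨i, a⟩ ⟨j, b⟩ h1 h2
    have h3 : i = j := ι.injective (Fin.ext h1)
    subst h3
    have h4 : a = b := Fin.ext h2
    rw [h4]
  by_cases hx : x.1 ∈ S ∧ (x.2 : ℕ) = 0
  · have h1 := (key_lt_iff S ι x).2 hx
    rw [h] at h1
    have hy := (key_lt_iff S ι y).1 h1
    rw [key_head S ι hx, key_head S ι hy] at h
    exact aux x y h (by rw [hx.2, hy.2])
  · have hy : ¬ (y.1 ∈ S ∧ (y.2 : ℕ) = 0) := fun hy => hx ((key_lt_iff S ι x).1 (by
      rw [h]; exact (key_lt_iff S ι y).2 hy))
    rw [key_tail S ι hx, key_tail S ι hy] at h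
    have h1 := (ι x.1).2
    have h2 := (ι y.1).2
    have hn : 0 < Fintype.card I := by omega
    have h3 : (Fintype.card I * ((x.2 : ℕ) + 1) + ι x.1) / Fintype.card I = (x.2 : ℕ) + 1 := by
      rw [Nat.mul_add_div hn, Nat.div_eq_of_lt h1, add_zero]
    have h4 : (Fintype.card I * ((y.2 : ℕ) + 1) + ι y.1) / Fintype.card I = (y.2 : ℕ) + 1 := by
      rw [Nat.mul_add_div hn, Nat.div_eq_of_lt h2, add_zero]
    rw [h, h4] at h3
    have h5 : (x.2 : ℕ) = y.2 := by omega
    rw [h5] at h
    exact aux x y (by omega) h5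

theorem key_mono {i : I} {a b : Fin (m i)} (h : key S ι ⟨i, a⟩ < key S ι ⟨i, b⟩) : a < b := by
  by_contra hc
  push Not at hc
  have hn : 0 < Fintype.card I := Fintype.card_pos_iff.2 ⟨i⟩
  rcases hc.eq_or_lt with h1 | h1
  · rw [h1] at h
    exact lt_irrefl _ h
  · have h2 : (b : ℕ) < a := h1
    have h3 : key S ι ⟨i, a⟩ = Fintype.card I * ((a : ℕ) + 1) + ι i :=
      key_tail S ι (x := ⟨i, a⟩) fun hh => by
        have := hh.2
        simp only at this
        omega
    have h4 : key S ι ⟨i, b⟩ ≤ Fintype.card I * ((b : ℕ) + 1) + ι i := by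
      by_cases hb : (⟨i, b⟩ : Σ i, Fin (m i)).1 ∈ S ∧ ((⟨i, b⟩ : Σ i, Fin (m i)).2 : ℕ) = 0
      · rw [key_head S ι hb]; exact Nat.le_add_left _ _
      · exact (key_tail S ι hb).le
    have h5 : Fintype.card I * ((b : ℕ) + 1) ≤ Fintype.card I * ((a : ℕ) + 1) :=
      Nat.mul_le_mul_left _ (by omega)
    omega

/-- A lower set of `Fin k` is an initial segment. -/
theorem lower_fin {k : ℕ} (T : Finset (Fin k)) (hT : ∀ a ∈ T, ∀ b, b < a → b ∈ T) (a : Fin k) :
    a ∈ T ↔ (a : ℕ) < T.card := by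
  constructor
  · intro ha
    have h1 : Finset.Iic a ⊆ T := fun b hb => by
      rcases (Finset.mem_Iic.1 hb).eq_or_lt with h | h
      · rw [h]; exact ha
      · exact hT a ha b h
    have h2 := Finset.card_le_card h1
    rw [Fin.card_Iic] at h2
    omega
  · intro ha
    by_contra hc
    have h1 : T ⊆ Finset.Iio a := fun b hb => by
      rw [Finset.mem_Iio]
      by_contra h
      push Not at h
      rcases h.eq_or_lt with h | h
      · exact hc (by rw [h]; exact hb)
      · exact hc (hT b hb a h)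
    have h2 := Finset.card_le_card h1
    rw [Fin.card_Iio] at h2
    omega

/-- The enumeration of all directions which starts with the first ones of the factors in `S`. -/
theorem exists_enum (hm : ∀ i, 0 < m i) : ∃ e : Fin (∑ i, m i) ≃ Σ i, Fin (m i),
    (∀ a b, a < b → ∀ (i : I) (u v : Fin (m i)), e a = ⟨i, u⟩ → e b = ⟨i, v⟩ → u < v) ∧
    ∀ a : Fin (∑ i, m i), (a : ℕ) < S.card ↔ ((e a).1 ∈ S ∧ ((e a).2 : ℕ) = 0) := by
  classical
  obtain ⟨ι, -⟩ : ∃ ι : I ≃ Fin (Fintype.card I), True := ⟨Fintype.equivFin I, trivial⟩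
  obtain ⟨s, hs⟩ : ∃ s : Finset ℕ, s = Finset.univ.image (key S ι : (Σ i, Fin (m i)) → ℕ) :=
    ⟨_, rfl⟩
  have hcard : s.card = ∑ i, m i := by
    rw [hs, Finset.card_image_of_injective _ (key_injective S ι), Finset.card_univ]
    simp
  have hmem : ∀ x, key S ι x ∈ s := fun x => by
    rw [hs]; exact Finset.mem_image_of_mem _ (Finset.mem_univ x)
  obtain ⟨f, hf⟩ : ∃ f : (Σ i, Fin (m i)) → s, ∀ x, (f x : ℕ) = key S ι x :=
    ⟨fun x => ⟨key S ι x, hmem x⟩, fun _ => rfl⟩
  have hbij : Function.Bijective f := by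
    constructor
    · intro x y h
      exact key_injective S ι (by rw [← hf, ← hf, h])
    · rintro ⟨y, hy⟩
      rw [hs] at hy
      obtain ⟨x, _, rfl⟩ := Finset.mem_image.1 hy
      exact ⟨x, Subtype.ext (hf x)⟩
  obtain ⟨o, -⟩ : ∃ o : Fin (∑ i, m i) ≃o s, True := ⟨s.orderIsoOfFin hcard, trivial⟩
  obtain ⟨e, he⟩ : ∃ e : Fin (∑ i, m i) ≃ Σ i, Fin (m i), ∀ a, key S ι (e a) = (o a : ℕ) := by
    refine ⟨o.toEquiv.trans (Equiv.ofBijective f hbij).symm, fun a => ?_⟩
    rw [← hf]
    have : f ((Equiv.ofBijective f hbij).symm (o a)) = o a :=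
      (Equiv.ofBijective f hbij).apply_symm_apply (o a)
    exact congrArg Subtype.val this
  have hlt : ∀ a b, a < b → key S ι (e a) < key S ι (e b) := fun a b hab => by
    rw [he, he]
    exact o.strictMono hab
  refine ⟨e, fun a b hab i u v hu hv => ?_, fun a => ?_⟩
  · have h1 := hlt a b hab
    rw [hu, hv] at h1
    exact key_mono S ι h1
  · obtain ⟨T, hT⟩ : ∃ T : Finset (Fin (∑ i, m i)),
        T = Finset.univ.filter fun a => key S ι (e a) < Fintype.card I := ⟨_, rfl⟩
    have hTm : ∀ a, a ∈ T ↔ ((e a).1 ∈ S ∧ ((e a).2 : ℕ) = 0) := fun a => by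
      rw [hT, Finset.mem_filter]
      simp only [Finset.mem_univ, true_and]
      exact key_lt_iff S ι (e a)
    have hTcard : T.card = S.card := by
      refine Finset.card_bij (fun a _ => (e a).1) (fun a ha => ((hTm a).1 ha).1) ?_ ?_
      · intro a ha b hb hab
        have h1 := (hTm a).1 ha
        have h2 := (hTm b).1 hb
        refine e.injective ?_
        rcases hx : e a with ⟨i, u⟩
        rcases hy : e b with ⟨j, v⟩
        rw [hx, hy] at hab
        rw [hx] at h1
        rw [hy] at h2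
        simp only at hab h1 h2
        subst hab
        have h3 : u = v := Fin.ext (by rw [h1.2, h2.2])
        rw [h3]
      · intro i hi
        refine ⟨e.symm ⟨i, ⟨0, hm i⟩⟩, ?_, ?_⟩
        · rw [hTm, Equiv.apply_symm_apply]
          exact ⟨hi, rfl⟩
        · rw [Equiv.apply_symm_apply]
    rw [← hTm, ← hTcard]
    refine (lower_fin T (fun a ha b hb => ?_) a).symm
    rw [hT, Finset.mem_filter] at ha ⊢
    exact ⟨Finset.mem_univ _, (hlt b a hb).trans ha.2⟩

end enum

section chain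

variable {I : Type} [Fintype I] [DecidableEq I] {H : I → Type} [∀ i, Group (H i)]
  [∀ i, TopologicalSpace (H i)] [∀ i, MeasurableSpace (H i)] {m : I → ℕ}

theorem single_comm {i j : I} (hij : i ≠ j) (x : H i) (y : H j) :
    (Pi.mulSingle i x : ∀ i, H i) * Pi.mulSingle j y = Pi.mulSingle j y * Pi.mulSingle i x :=
  Pi.mulSingle_commute hij x y

/-- The chain of a product, in any order compatible with the orders of the factors. -/
def piChain (C : ∀ i, HChain (H i) (m i)) {M : ℕ} (e : Fin M ≃ Σ i, Fin (m i))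
    (he : ∀ a b, a < b → ∀ (i : I) (u v : Fin (m i)), e a = ⟨i, u⟩ → e b = ⟨i, v⟩ → u < v) :
    HChain (∀ i, H i) M where
  b := fun a N => Pi.mulSingle (e a).1 ((C (e a).1).b (e a).2 N)
  K := fun a => (fun x => Pi.mulSingle (e a).1 x) '' (C (e a).1).K (e a).2
  compact := fun a => ((C (e a).1).compact (e a).2).image (continuous_mulSingle _)
  comm_b := by
    intro a b hab N M
    have h := he a b hab
    generalize e a = x at h ⊢
    generalize e b = y at h ⊢
    rcases x with ⟨i, u⟩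
    rcases y with ⟨j, v⟩
    by_cases hij : i = j
    · subst hij
      have h1 := (C i).comm_b u v (h i u v rfl rfl) N M
      show Pi.mulSingle i _ * Pi.mulSingle i _ = Pi.mulSingle i _ * Pi.mulSingle i _
      rw [← Pi.mulSingle_mul, ← Pi.mulSingle_mul, h1]
    · exact single_comm hij _ _
  comm_K := by
    rintro a b hab N _ ⟨z, hz, rfl⟩
    have h := he a b hab
    revert hz z
    generalize e a = x at h ⊢
    generalize e b = y at h ⊢
    rcases x with ⟨i, u⟩
    rcases y with ⟨j, v⟩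
    intro z hz
    by_cases hij : i = j
    · subst hij
      have h1 := (C i).comm_K u v (h i u v rfl rfl) N z hz
      show Pi.mulSingle i _ * Pi.mulSingle i _ = Pi.mulSingle i _ * Pi.mulSingle i _
      rw [← Pi.mulSingle_mul, ← Pi.mulSingle_mul, h1]
    · exact single_comm hij _ _
  pp := by
    intro a p
    obtain ⟨N₀, h⟩ := (C (e a).1).pp (e a).2 p
    refine ⟨N₀, fun N hN => ?_⟩
    obtain ⟨κ, κ', Bm, Bp, h1, h2, h3, h4, h5, h6, h7⟩ := h N hN
    refine ⟨fun l => Pi.mulSingle (e a).1 (κ l), fun l => Pi.mulSingle (e a).1 (κ' l),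
      fun l => (fun x : ∀ i, H i => x (e a).1) ⁻¹' Bm l,
      fun l => (fun x : ∀ i, H i => x (e a).1) ⁻¹' Bp l, fun l => ⟨_, h1 l, rfl⟩,
      fun l => ⟨_, h2 l, rfl⟩, fun l => measurable_pi_apply _ (h3 l),
      fun l => measurable_pi_apply _ (h4 l), fun l l' hl => (h5 l l' hl).preimage _,
      fun l l' hl => (h6 l l' hl).preimage _, fun l x hx => ?_⟩
    have h8 := h7 l (x (e a).1) hx
    show (Pi.mulSingle (e a).1 (κ l) * Pi.mulSingle (e a).1 ((C (e a).1).b (e a).2 N) *
      Pi.mulSingle (e a).1 (κ' l) * x) (e a).1 ∈ Bp l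
    simpa [Pi.mul_apply, Pi.mulSingle_eq_same] using h8

/-- **The shuffled chain of a finite product**: the products of the first directions of the factors
in `S` are the products of the first `|S|` directions. -/
theorem exists_piChain (C : ∀ i, HChain (H i) (m i)) (hm : ∀ i, 0 < m i) (S : Finset I) :
    ∃ D : HChain (∀ i, H i) (∑ i, m i), ∀ N : I → ℕ,
      HS D.b S.card fun i => if i ∈ S then (C i).b ⟨0, hm i⟩ (N i) else 1 := by
  classical
  obtain ⟨e, he, hhead⟩ := exists_enum (m := m) S hm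
  refine ⟨piChain C e he, fun N => ?_⟩
  obtain ⟨f, hf⟩ : ∃ f : ℕ → ∀ i, H i, ∀ j i, f j i =
      if i ∈ S ∧ (e.symm ⟨i, ⟨0, hm i⟩⟩ : ℕ) < j then (C i).b ⟨0, hm i⟩ (N i) else 1 :=
    ⟨_, fun _ _ => rfl⟩
  have hSM : S.card ≤ ∑ i, m i := by
    calc S.card = ∑ i ∈ S, 1 := by simp
      _ ≤ ∑ i ∈ S, m i := Finset.sum_le_sum fun i _ => hm i
      _ ≤ ∑ i, m i := Finset.sum_le_sum_of_subset (Finset.subset_univ S)
  have key : ∀ j, j ≤ S.card → HS (piChain C e he).b j (f j) := by
    intro j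
    induction j with
    | zero =>
      intro _
      have h1 : f 0 = 1 := by
        funext i
        rw [hf, if_neg (fun h => by have := h.2; omega)]
        rfl
      rw [h1]
      exact HS.one
    | succ j ih =>
      intro hj
      have hjM : j < ∑ i, m i := by omega
      obtain ⟨h1, h2⟩ := (hhead ⟨j, hjM⟩).1 (by simpa using hj)
      have h3 := HS.step hjM (N (e ⟨j, hjM⟩).1) (ih (by omega))
      have h4 : f (j + 1) = f j * (piChain C e he).b ⟨j, hjM⟩ (N (e ⟨j, hjM⟩).1) := by
        funext i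
        show f (j + 1) i = f j i * (Pi.mulSingle (e ⟨j, hjM⟩).1
          ((C (e ⟨j, hjM⟩).1).b (e ⟨j, hjM⟩).2 (N (e ⟨j, hjM⟩).1)) : ∀ i, H i) i
        rcases hx : e ⟨j, hjM⟩ with ⟨i0, u⟩
        rw [hx] at h1 h2
        simp only at h1 h2
        have hu : u = ⟨0, hm i0⟩ := Fin.ext h2
        have h5 : (e.symm ⟨i0, ⟨0, hm i0⟩⟩ : ℕ) = j := by
          rw [← hu, ← hx, Equiv.symm_apply_apply]
        by_cases hi : i = i0
        · subst hi
          rw [hf, hf, if_pos ⟨h1, by omega⟩, if_neg (fun h => by have := h.2; omega), one_mul]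
          simp only
          rw [Pi.mulSingle_eq_same, hu]
        · simp only
          rw [Pi.mulSingle_eq_of_ne hi, mul_one, hf, hf]
          by_cases hiS : i ∈ S
          · have h6 : (e.symm ⟨i, ⟨0, hm i⟩⟩ : ℕ) ≠ j := by
              intro h
              have h7 : e.symm ⟨i, ⟨0, hm i⟩⟩ = ⟨j, hjM⟩ := Fin.ext h
              rw [Equiv.symm_apply_eq, hx] at h7
              exact hi (congrArg Sigma.fst h7)
            by_cases h8 : (e.symm ⟨i, ⟨0, hm i⟩⟩ : ℕ) < j
            · rw [if_pos ⟨hiS, by omega⟩, if_pos ⟨hiS, h8⟩]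
            · rw [if_neg (fun h => by have := h.2; omega), if_neg (fun h => h8 h.2)]
          · rw [if_neg (fun h => hiS h.1), if_neg (fun h => hiS h.1)]
      rw [h4]
      exact h3
  have h1 := key S.card le_rfl
  have h2 : f S.card = fun i => if i ∈ S then (C i).b ⟨0, hm i⟩ (N i) else 1 := by
    funext i
    rw [hf]
    by_cases hiS : i ∈ S
    · have h3 := (hhead (e.symm ⟨i, ⟨0, hm i⟩⟩)).2 (by
        rw [Equiv.apply_symm_apply]; exact ⟨hiS, rfl⟩)
      rw [if_pos ⟨hiS, h3⟩, if_pos hiS]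
    · rw [if_neg (fun h => hiS h.1), if_neg hiS]
  rw [← h2]
  exact h1

end chain

end Vale.Agent.P092.H739
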