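import Vale.Agent.P092.H739.Mau
import Vale.Agent.P092.H264.S2Top

/-!
P092 (helper739): the input of step (S2) for finitely many factors.
-/

set_option linter.all false

open scoped InnerProductSpace Topology
open Filter Topology MeasureTheory

namespace Vale.Agent.P092.H739

open Vale.Agent.P092.H160 Vale.Agent.P092.H156 Vale.Agent.P092.H264
open Vale.Agent.P092.H761 (HS)
open Vale.Agent.P092.H538 (ind)
open Vale.Agent.P092.H515 (Tgt HChain.prodSnd)
open Vale.Agent.P092.H701 (HChain)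

/-- Products of directions of the second factor. -/
theorem HS_prodSnd {H H' : Type} [Group H] [TopologicalSpace H] [MeasurableSpace H] [Group H']
    [TopologicalSpace H'] [MeasurableSpace H'] {r r' : ℕ} (C : HChain H r) (C' : HChain H' r')
    {k : ℕ} {z : H'} (hz : HS C'.b k z) : HS (HChain.prodSnd C C').b k ((1 : H), z) := by
  induction hz with
  | one => exact HS.one
  | @step j h hj N hh ih =>
    have hj' : j < r' + r := by omega
    have e : (HChain.prodSnd C C').b ⟨j, hj'⟩ N = ((1 : H), C'.b ⟨j, hj⟩ N) := by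
      have e1 : (⟨j, hj'⟩ : Fin (r' + r)) = Fin.castAdd r ⟨j, hj⟩ := rfl
      rw [e1]
      show (Fin.addCases (motive := fun x => ℕ → H' × H) (fun i N => (C'.b i N, 1))
        (fun i N => (1, C.b i N)) (Fin.castAdd r ⟨j, hj⟩) N).swap = _
      rw [Fin.addCases_left]
      rfl
    have h1 := HS.step hj' N ih
    rw [e] at h1
    have h2 : ((1 : H), h) * ((1 : H), C'.b ⟨j, hj⟩ N) = ((1 : H), h * C'.b ⟨j, hj⟩ N) := by
      rw [Prod.mk_mul_mk, one_mul]
    rwa [h2] at h1

section frm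

variable {E : Type} [Group E] [TopologicalSpace E] [IsTopologicalGroup E]
    [LocallyCompactSpace E] [SecondCountableTopology E] [T2Space E] [MeasurableSpace E]
    [BorelSpace E] {Λ : Subgroup E} [DiscreteTopology Λ] [MeasurableSpace (E ⧸ Λ)]
    [BorelSpace (E ⧸ Λ)] {ν : Measure (E ⧸ Λ)} [IsProbabilityMeasure ν]
    {Γ K : Type} [Group Γ]
    [NormedAddCommGroup K] [InnerProductSpace ℂ K] [CompleteSpace K] {ρ : Γ →* (K →L[ℂ] K)}
    {V : Λ →* (K →L[ℂ] K)} {ω : K}

/-- Some place stays bounded along products of fewer directions than places, for a frame. -/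
theorem some_bounded_frm (hν : ∀ g : E, ν.map (fun x => g • x) = ν) [Countable Γ]
    (h : Sm.Frm ρ V ω) {I : Type} [Fintype I] [Nonempty I] {G : I → Type} [∀ i, Group (G i)]
    [∀ i, TopologicalSpace (G i)] {r : I → ℕ} {m k : ℕ} (C : HChain E m)
    (hk : k ≤ m) (hkI : k < Fintype.card I) (hG : ∀ i, Tgt (G i) (r i)) (hrm : ∑ i, r i ≤ m)
    (φ : Γ →* ∀ i, G i) (hφ : ∀ K : Set (∀ i, G i), IsCompact K → {x | φ x ∈ K}.Finite)
    (z : ℕ → E) (hz : ∀ N, HS C.b k (z N)) :
    ∃ (i : I) (s : ℕ → ℕ) (K : Set (G i)), StrictMono s ∧ IsCompact K ∧ ∀ N,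
      (1 : ℝ) / (2 * Fintype.card I) ≤
        ∫ x, ms ρ V ω (fun g => φ g i ∈ K) (H85.coc Λ (z (s N)) x) ∂ν := by
  classical
  have : Countable Λ := H790.countable_of_discrete Λ
  have hint : ∀ (g : E) (F : Γ → ℝ),
      H132.massX (H790.baseL (H85.cdat ν hν).μ Γ Unit) (H790.Ri (H85.cdat ν hν) (rR h.reg V)) g F =
        ∫ x, H761.massR (rR h.reg V) (H85.coc Λ g x) F ∂ν := fun g F =>
    H156.mass_int (H85.cdat ν hν) (arep h) g F (fun i => H790.ept (H85.cdat ν hν).μ i)
      (fun i => H790.ept_ae i)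
  obtain ⟨i, s, K, h1, h2, h3⟩ := some_bounded_seq (H761.sharpData Λ ν hν (arep h)) C hk hkI hG hrm
    (fun i => (Pi.evalMonoidHom G i).comp φ) (fun K hK => by
      refine (hφ (Set.univ.pi K) (isCompact_univ_pi hK)).subset fun x hx => ?_
      exact fun i _ => hx i) z hz
  refine ⟨i, s, K, h1, h2, fun N => ?_⟩
  have h4 := h3 N
  rw [hint] at h4
  simp only [massR_ind] at h4
  exact h4

end frm

section prod

variable {A S : Type} [Fintype S] {H : S → Type} [Group A] [TopologicalSpace A]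
    [IsTopologicalGroup A] [LocallyCompactSpace A] [SecondCountableTopology A] [T2Space A]
    [MeasurableSpace A] [BorelSpace A] [∀ s, Group (H s)] [∀ s, TopologicalSpace (H s)]
    [∀ s, IsTopologicalGroup (H s)] [∀ s, LocallyCompactSpace (H s)]
    [∀ s, SecondCountableTopology (H s)] [∀ s, T2Space (H s)] [∀ s, MeasurableSpace (H s)]
    [∀ s, BorelSpace (H s)] {Λ : Subgroup (A × ∀ s, H s)} [DiscreteTopology Λ]
    [MeasurableSpace ((A × ∀ s, H s) ⧸ Λ)] [BorelSpace ((A × ∀ s, H s) ⧸ Λ)]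
    {ν : Measure ((A × ∀ s, H s) ⧸ Λ)} [IsProbabilityMeasure ν]
    {Γ K : Type} [Group Γ]
    [NormedAddCommGroup K] [InnerProductSpace ℂ K] [CompleteSpace K] {ρ : Γ →* (K →L[ℂ] K)}
    {V : Λ →* (K →L[ℂ] K)} {ω : K}

/-- **The input of (S2) for finitely many factors**: a Howe-Moore sequence in the product of the
factors `H s` along which the averaged mass of `{γ | p_j γ ∈ K}` is bounded below, for one of the
places, as soon as there are more places than factors `H s`. -/
theorem input_r (hν : ∀ g : A × ∀ s, H s, ν.map (fun x => g • x) = ν) [Countable Γ]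
    (h : Sm.Frm ρ V ω) {J : Type} [Fintype J] {G : J → Type} [∀ j, Group (G j)]
    [∀ j, TopologicalSpace (G j)] {r : J → ℕ} {nA : ℕ} {n : S → ℕ} (CA : HChain A nA)
    (C : ∀ s, HChain (H s) (n s)) (hn : ∀ s, 0 < n s)
    (hM : ∀ s, Mau (H s) ((C s).b ⟨0, hn s⟩)) (hG : ∀ j, Tgt (G j) (r j))
    (hc : Fintype.card S < Fintype.card J) (hr : ∑ j, r j ≤ nA + ∑ s, n s)
    (φ : Γ →* ∀ j, G j) (hφ : ∀ K : Set (∀ j, G j), IsCompact K → {x | φ x ∈ K}.Finite) :
    ∃ b : ℕ → ∀ s, H s, HMSeq (∀ s, H s) b ∧ ∃ (j : J) (K : Set (G j)), IsCompact K ∧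
      ∃ c : ℝ, 0 < c ∧ ∀ N, c ≤
        ∫ x, ms ρ V ω (fun g => φ g j ∈ K) (H85.coc Λ ((1 : A), b N) x) ∂ν := by
  classical
  have : Nonempty J := Fintype.card_pos_iff.1 (by omega)
  obtain ⟨D, hD⟩ := exists_piChain C hn Finset.univ
  have hcard : (Finset.univ : Finset S).card ≤ ∑ s, n s := by
    rw [Finset.card_eq_sum_ones]
    exact Finset.sum_le_sum fun s _ => hn s
  obtain ⟨j, s, K, hs, hK, h3⟩ := some_bounded_frm hν h (HChain.prodSnd CA D)
    (k := (Finset.univ : Finset S).card) (by omega) (by rwa [Finset.card_univ]) hG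
    (by omega) φ hφ (fun N => ((1 : A), fun s => (C s).b ⟨0, hn s⟩ N)) (fun N => by
      have h1 := hD fun _ => N
      simp only [Finset.mem_univ, if_true] at h1
      exact HS_prodSnd CA D h1)
  refine ⟨fun N s' => (C s').b ⟨0, hn s'⟩ (s N), ?_, j, K, hK,
    1 / (2 * Fintype.card J), by positivity, h3⟩
  exact HMSeq.comp (mau_pi hM).hmSeq hs.tendsto_atTop

end prod

end Vale.Agent.P092.H739
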