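import Vale.Agent.P092.H515.NonEsc

/-!
P092 (helper739): products of any finite number of factors, the engine. After `k` steps of a chain
of full length at most `k` classes of gaps are unbounded, so if the target has more than `k` factors
one of them stays bounded.
-/

set_option linter.all false

open Filter Topology MeasureTheory

namespace Vale.Agent.P092.H739

open Vale.Agent.P092.H200 Vale.Agent.P092.H761 Vale.Agent.P092.H515
open Vale.Agent.P092.H538 (ind ind_pos ind_neg ind_nonneg abs_ind_le)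
open Vale.Agent.P092.H160 Vale.Agent.P092.H432 Vale.Agent.P092.H132
open Vale.Agent.P092.H701 (HChain)

section abs

variable {Γ 𝔾 : Type} [Group Γ] [DecidableEq Γ] [Group 𝔾] {t : ℝ}
  {mass : 𝔾 → (Γ → ℝ) → ℝ} {Cpt : Set 𝔾 → Prop} {Ping : (p : ℕ) → (Fin p → 𝔾) → Prop}
  {m : ℕ} {b : Fin m → ℕ → 𝔾} {𝒦 : Fin m → Set 𝔾}

/-- **Some factor stays bounded**: along products of the first `k` directions of a chain, if there
are more than `k` factors, the mass stays in the union over the factors `i` of the sets where the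
factor `i` is bounded. -/
theorem some_bounded (h : SharpData t mass Cpt Ping) (hch : GChain Cpt Ping m b 𝒦) {k : ℕ}
    (hk : k ≤ m) {I : Type} [Fintype I] {r : I → ℕ} (hrm : ∑ i, r i ≤ m)
    (hkI : k < Fintype.card I) (P : I → Set Γ → Prop)
    (hP : ∀ A : I → Set Γ, (∀ i, P i (A i)) → {g | ∀ i, g ∈ A i}.Finite) [hI : Nonempty I]
    (hs : ∀ i, ∃ (J : Type) (_ : Fintype J) (gp : J → Γ → ℝ) (w : Γ → ℝ) (cl : J → Fin (r i)),
      GSys gp w ∧ (∀ R : ℝ, ∃ R' : ℝ, ∀ i j, cl i = cl j → ∀ g, gp i g ≤ R → gp j g ≤ R') ∧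
      ∀ R : ℝ, ∃ A : Set Γ, P i A ∧ ∀ g, w g ≤ R → g ∈ A) {ε : ℝ} (hε : 0 < ε) :
    ∃ A : I → Set Γ, (∀ i, P i (A i)) ∧ ∀ z, HS b k z →
      t - ε ≤ mass z (ind fun g => ∃ i, g ∈ A i) := by
  classical
  choose J hJ gp w cl hs hc hp using hs
  have e : (Σ i, Fin (r i)) ≃ Fin (∑ i, r i) := Fintype.equivFinOfCardEq (by simp)
  have hsys := GSys.pi hs
  have fin : ∀ R : ℝ, {g : Γ | ∑ i, w i g ≤ R}.Finite := by
    intro R
    choose A hA hw using fun i => hp i R
    refine (hP A hA).subset fun g hg i => hw i g ?_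
    exact (Finset.single_le_sum (f := fun i => w i g)
      (fun i _ => ((hs i).pos g).le) (Finset.mem_univ i)).trans hg
  have hcomp : ∀ R : ℝ, ∃ R' : ℝ, ∀ i j : (Σ i, J i), e ⟨i.1, cl i.1 i.2⟩ = e ⟨j.1, cl j.1 j.2⟩ →
      ∀ g, gp i.1 i.2 g ≤ R → gp j.1 j.2 g ≤ R' := by
    intro R
    choose R' hR using fun i => hc i R
    obtain ⟨R'', _, h2⟩ := exists_le_all R'
    refine ⟨R'', ?_⟩
    rintro ⟨i, j⟩ ⟨i', j'⟩ hcl g hg
    have h3 := e.injective hcl
    obtain ⟨rfl, h4⟩ := Sigma.mk.inj_iff.1 h3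
    exact (hR i j j' (eq_of_heq h4) _ hg).trans (h2 i)
  have hg := hsys.gaps fin (fun j => e ⟨j.1, cl j.1 j.2⟩) hcomp
  have hgeo := fun θ => hsys.geo' fin θ
  obtain ⟨R0, hR0⟩ := few_big h hg (fun θ _ _ => hgeo θ) hch (j := k) (n := k + 1) hk
    (by omega) hε
  choose R1 hR1 using fun i => (hs i).bdd R0
  obtain ⟨R2, _, hR2⟩ := exists_le_all R1
  choose A hA hw using fun i => hp i R2
  refine ⟨A, hA, fun z hz => ?_⟩
  have h1 := mass_compl h z (fun g => ∃ i, g ∈ A i)
    (fun g => k + 1 ≤ (big (fun (j : Σ i, J i) g => gp j.1 j.2 g)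
      (fun j => e ⟨j.1, cl j.1 j.2⟩) R0 g).card) ?_
  · have h2 := hR0 z hz
    linarith
  · intro g hno
    push Not at hno
    have hex : ∀ i, ∃ j : J i, R0 < gp i j g := by
      intro i
      by_contra hc
      push Not at hc
      exact hno i (hw i g ((hR1 i g hc).trans (hR2 i)))
    choose j hj using hex
    have hinj : Function.Injective fun i => e ⟨i, cl i (j i)⟩ := by
      intro i i' h
      exact congrArg Sigma.fst (e.injective h)
    have h3 : (Finset.univ.image fun i => e ⟨i, cl i (j i)⟩) ⊆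
        big (fun (j : Σ i, J i) g => gp j.1 j.2 g) (fun j => e ⟨j.1, cl j.1 j.2⟩) R0 g := by
      intro x hx
      obtain ⟨i, _, rfl⟩ := Finset.mem_image.1 hx
      exact mem_big.mpr ⟨⟨i, j i⟩, rfl, (hj i).le⟩
    have h4 := Finset.card_le_card h3
    rw [Finset.card_image_of_injective _ hinj, Finset.card_univ] at h4
    omega

end abs

section top

/-- **Some factor stays bounded**, for a finite family of target groups. -/
theorem some_bounded_tgt {E : Type} [Group E] [TopologicalSpace E] [MeasurableSpace E]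
    {Γ : Type} [Group Γ] [DecidableEq Γ] {t : ℝ} {mass : E → (Γ → ℝ) → ℝ}
    {I : Type} [Fintype I] [Nonempty I] {G : I → Type} [∀ i, Group (G i)]
    [∀ i, TopologicalSpace (G i)] {r : I → ℕ} {m k : ℕ}
    (hd : SharpData t mass (fun K : Set E => IsCompact K) (H261.PingT E)) (C : HChain E m)
    (hk : k ≤ m) (hkI : k < Fintype.card I) (hG : ∀ i, Tgt (G i) (r i)) (hrm : ∑ i, r i ≤ m)
    (φ : ∀ i, Γ →* G i)
    (hφ : ∀ K : ∀ i, Set (G i), (∀ i, IsCompact (K i)) → {x | ∀ i, φ i x ∈ K i}.Finite)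
    {ε : ℝ} (hε : 0 < ε) :
    ∃ K : ∀ i, Set (G i), (∀ i, IsCompact (K i)) ∧ ∀ z, HS C.b k z →
      t - ε ≤ ∑ i, mass z (ind fun g => φ i g ∈ K i) := by
  classical
  obtain ⟨A, hA, hN⟩ := some_bounded hd (H261.gchain_of_hchain C) hk (I := I) (r := r) hrm hkI
    (fun i A => ∃ K : Set (G i), IsCompact K ∧ ∀ g ∈ A, φ i g ∈ K) (fun A hA => by
        choose K hK h1 using hA
        exact (hφ K hK).subset fun g hg i => h1 i g (hg i))
    (fun i => by
      obtain ⟨J, hJ, gp, w, cl, hs⟩ := hG i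
      refine ⟨J, hJ, fun j g => gp j (φ i g), fun g => w (φ i g), cl,
        hs.sys.comap (φ i), fun R => ?_, fun R => ?_⟩
      · obtain ⟨R', hR⟩ := hs.comp R
        exact ⟨R', fun i j hij g hg => hR i j hij _ hg⟩
      · obtain ⟨K, hK, h1⟩ := hs.proper R
        exact ⟨{g | w (φ i g) ≤ R}, ⟨K, hK, fun g hg => h1 _ hg⟩, fun g hg => hg⟩) hε
  choose K hK h1 using hA
  refine ⟨K, hK, fun z hz => (hN z hz).trans ?_⟩
  refine hd.union z Finset.univ _ (fun i g => φ i g ∈ K i) ?_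
  rintro g ⟨i, hi⟩
  exact ⟨i, Finset.mem_univ i, h1 i g hi⟩

/-- Sequence form: along a subsequence one factor stays bounded with mass `≥ t / (2 |I|)`. -/
theorem some_bounded_seq {E : Type} [Group E] [TopologicalSpace E] [MeasurableSpace E]
    {Γ : Type} [Group Γ] [DecidableEq Γ] {t : ℝ} {mass : E → (Γ → ℝ) → ℝ}
    {I : Type} [Fintype I] [Nonempty I] {G : I → Type} [∀ i, Group (G i)]
    [∀ i, TopologicalSpace (G i)] {r : I → ℕ} {m k : ℕ}
    (hd : SharpData t mass (fun K : Set E => IsCompact K) (H261.PingT E)) (C : HChain E m)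
    (hk : k ≤ m) (hkI : k < Fintype.card I) (hG : ∀ i, Tgt (G i) (r i)) (hrm : ∑ i, r i ≤ m)
    (φ : ∀ i, Γ →* G i)
    (hφ : ∀ K : ∀ i, Set (G i), (∀ i, IsCompact (K i)) → {x | ∀ i, φ i x ∈ K i}.Finite)
    (z : ℕ → E) (hz : ∀ N, HS C.b k (z N)) :
    ∃ (i : I) (s : ℕ → ℕ) (K : Set (G i)), StrictMono s ∧ IsCompact K ∧
      ∀ N, t / (2 * Fintype.card I) ≤ mass (z (s N)) (ind fun g => φ i g ∈ K) := by
  classical
  obtain ⟨K, hK, h3⟩ := some_bounded_tgt hd C hk hkI hG hrm φ hφ (ε := t / 2)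
    (by linarith [hd.pos])
  have hcard : (0 : ℝ) < Fintype.card I := by exact_mod_cast Fintype.card_pos
  have ht := hd.pos
  have h4 : ∃ i, ∃ᶠ N in atTop, t / (2 * Fintype.card I) ≤
      mass (z N) (ind fun g => φ i g ∈ K i) := by
    by_contra hc
    have hc' : ∀ i, ∀ᶠ N in atTop, ¬ (t / (2 * Fintype.card I) ≤
        mass (z N) (ind fun g => φ i g ∈ K i)) := fun i =>
      not_frequently.1 fun h => hc ⟨i, h⟩
    have h5 : ∀ᶠ N in atTop, ∀ i, ¬ (t / (2 * Fintype.card I) ≤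
        mass (z N) (ind fun g => φ i g ∈ K i)) := eventually_all.2 hc'
    obtain ⟨N, hN⟩ := h5.exists
    have h6 := h3 (z N) (hz N)
    have h7 : ∑ i, mass (z N) (ind fun g => φ i g ∈ K i) <
        ∑ i : I, t / (2 * Fintype.card I) :=
      Finset.sum_lt_sum_of_nonempty Finset.univ_nonempty fun i _ => not_le.1 (hN i)
    rw [Finset.sum_const, nsmul_eq_mul, Finset.card_univ] at h7
    have h8 : (Fintype.card I : ℝ) * (t / (2 * Fintype.card I)) = t / 2 := by
      field_simp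
    linarith
  obtain ⟨i, hi⟩ := h4
  obtain ⟨s, hs, h5⟩ := extraction_of_frequently_atTop hi
  exact ⟨i, s, K i, hs, hK i, h5⟩

end top

end Vale.Agent.P092.H739
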